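import Vale.Agent.P218FS.Stmt2
import Mathlib.Analysis.Calculus.IteratedDeriv.Defs
import Mathlib.Topology.UniformSpace.UniformConvergence

/-! Locally smooth convergence, with multiplicity one, of families of moving surfaces. -/

open Set Filter Topology Metric
open scoped ContDiff RealInnerProductSpace

namespace Vale.Agent.P218S.St

section general

variable {P E : Type} [NormedAddCommGroup P] [NormedAddCommGroup E]

/-- `J` and `e` are Cartesian coordinates: `e` is a unit vector orthogonal to the plane which is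
the image of the linear isometry `J` -/
def IsFrame [InnerProductSpace ℝ P] [InnerProductSpace ℝ E] (J : P →ₗᵢ[ℝ] E) (e : E) : Prop :=
  ‖e‖ = 1 ∧ ∀ ξ, ⟪e, J ξ⟫ = 0

/-- in the space-time cylinder of the points `(x + J ξ + z e, τ)`, `(ξ, τ) ∈ D`, `|z| < h`, the
moving set `M` is exactly the graph `z = u (ξ, τ)` of one smooth function: a single sheet -/
def IsGraphIn [NormedSpace ℝ P] [NormedSpace ℝ E] (M : ℝ → Set E) (x : E) (J : P → E) (e : E)
    (D : Set (P × ℝ)) (h : ℝ) (u : P × ℝ → ℝ) : Prop :=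
  ContDiffOn ℝ ∞ u D ∧
    ∀ q ∈ D, |u q| < h ∧ ∀ z : ℝ, |z| < h → (x + J q.1 + z • e ∈ M q.2 ↔ z = u q)

/-- as `λ → ∞`, all derivatives (in space and time, of every order) of `u λ` converge to those of
`u₀`, uniformly on `D` -/
def CInfTendsto [NormedSpace ℝ P] (u : ℝ → P × ℝ → ℝ) (u₀ : P × ℝ → ℝ) (D : Set (P × ℝ)) : Prop :=
  ∀ k : ℕ, TendstoUniformlyOn (fun lam => iteratedFDeriv ℝ k (u lam)) (iteratedFDeriv ℝ k u₀)
    atTop D

/-- near the space-time point `(x, s)` the moving sets `M λ` (`λ` large) and `L` are single smooth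
graphs over one plane in one cylinder, and the graphs converge in `C^∞` as `λ → ∞` -/
def GraphTendstoAt (P : Type) [NormedAddCommGroup P] [InnerProductSpace ℝ P]
    [InnerProductSpace ℝ E] (M : ℝ → ℝ → Set E) (L : ℝ → Set E) (x : E) (s : ℝ) : Prop :=
  ∃ (J : P →ₗᵢ[ℝ] E) (e : E) (r h : ℝ) (u : ℝ → P × ℝ → ℝ) (u₀ : P × ℝ → ℝ),
    IsFrame J e ∧ 0 < r ∧ r ≤ -s ∧ IsGraphIn L x J e (ball (0, s) r) h u₀ ∧
    (∀ᶠ lam in atTop, IsGraphIn (M lam) x J e (ball (0, s) r) h (u lam)) ∧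
    CInfTendsto u u₀ (ball (0, s) r)

/-- the space-time point `(x, s)` has a neighbourhood which the moving sets `M λ` do not meet for
all large `λ` -/
def AvoidsAt (M : ℝ → ℝ → Set E) (x : E) (s : ℝ) : Prop :=
  ∃ W ∈ 𝓝 (x, s), ∀ᶠ lam in atTop, ∀ p ∈ W, p.1 ∉ M lam p.2

end general

open Vale.Agent.P218FS.St

/-- the moving surfaces `M λ` converge, as `λ → ∞`, locally smoothly and with multiplicity one on
`ℝ³ × (-∞, 0)` to the moving surface `L` -/
def SmoothTendsto (M : ℝ → ℝ → Set R3) (L : ℝ → Set R3) : Prop :=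
  ∀ s < 0, ∀ x : R3, (x ∈ L s → GraphTendstoAt R2 M L x s) ∧ (x ∉ L s → AvoidsAt M x s)

/-- the rescaled surface `λ (M_{t₀ + s/λ²} - x₀)`, `M_t = F_t(N)` -/
def rescaledSurface {N : Type*} (F : ℝ → N → R3) (x₀ : R3) (t₀ lam s : ℝ) : Set R3 :=
  (fun x => lam • (x - x₀)) '' range (F (t₀ + s / lam ^ 2))

/-- the surface `√(-s) S` -/
def shrinkingSurface (S : Set R3) (s : ℝ) : Set R3 := (fun x => √(-s) • x) '' S

end Vale.Agent.P218S.St
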