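import Vale.Agent.P218S.Ult
import Vale.Agent.P218S.St
import Vale.Agent.P218FT.ConvAll
import Vale.Agent.P218FT.TAll

/-! Locally smooth convergence of the rescaled flows as the scale tends to infinity. -/

open MeasureTheory Set Filter Topology Metric
open scoped ContDiff RealInnerProductSpace

namespace Vale.Agent.P218S

open Vale.Agent.P218FT Vale.Agent.P218FT.Conv

/-- a surface is determined by its area measure -/
theorem eq_of_area {A B : Set E3} (hA : IsSurf A) (hB : IsSurf B) (h : area A = area B) :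
    A = B := by
  have key : ∀ {A B : Set E3}, IsSurf A → IsSurf B → area A = area B → A ⊆ B := by
    intro A B hA hB h x hx
    by_contra hxB
    obtain ⟨ε, hε, hb⟩ := Metric.isOpen_iff.1 hB.1.isOpen_compl x hxB
    obtain ⟨r, ⟨h1, h2⟩, h3⟩ := (((Chart.lower_proof A hA x hx).and self_mem_nhdsWithin).and
      (mem_nhdsWithin_of_mem_nhds (gt_mem_nhds hε))).exists
    have h2' : 0 < r := h2
    have h4 : ball x r ∩ B = ∅ :=
      eq_empty_of_forall_notMem fun y hy => hb (ball_subset_ball (le_of_lt h3) hy.1) hy.2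
    rw [h, area, Measure.restrict_apply measurableSet_ball, h4, measure_empty] at h1
    exact absurd h1 (not_le.2 (ENNReal.ofReal_pos.2 (by positivity)))
  exact (key hA hB h).antisymm (key hB hA h.symm)

variable {D G a b : ℝ} {M : ℝ → Set E3}

/-- two-point bounds of the rescaled flows -/
theorem twoPt_atTop (hab : a < b) (hM : InC D G M (Ioo a b)) (x₀ : E3) {t : ℝ} (ht' : t < 0)
    (x : E3) : ∃ r C : ℝ, 0 < r ∧ ∀ᶠ lam : ℝ in atTop, ∀ s ∈ Ioo (2 * t) (t / 2), ∀ z ∈ ball x 1,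
      z ∈ scaleFlow lam x₀ b M s → TwoPt (scaleFlow lam x₀ b M s) z r C := by
  have q0 : 0 < √(-(t / 2)) := Real.sqrt_pos.2 (by linarith)
  obtain ⟨r, C, t₁, r0, C0, h1, h2⟩ := t1_all D G M a b hab hM x₀ ((‖x‖ + 1) / √(-(t / 2)))
  refine ⟨r * √(-(t / 2)), C / √(-(t / 2)), by positivity, ?_⟩
  filter_upwards [ev_time (lam := fun lam : ℝ => lam) tendsto_id h1 (2 * t)]
    with lam hi s hs z hz hm
  have l0 := hi.1
  have hq : √(-(t / 2)) ≤ √(-s) := Real.sqrt_le_sqrt (by linarith [hs.2])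
  have hy : ‖z‖ ≤ ‖x‖ + 1 := by
    have h3 := mem_ball_iff_norm.1 hz
    linarith [norm_le_norm_add_norm_sub' z x, norm_sub_rev z x]
  have h3 := h2 (b + s / lam ^ 2) ⟨hi.2 _ hs.1.le, tup_lt l0 (by linarith [hs.2])⟩
    _ hm (by
      rw [add_sub_cancel_left, norm_smul, norm_inv, Real.norm_eq_abs, abs_of_pos l0,
        sqrt_tup l0, ← mul_div_assoc, inv_mul_eq_div]
      refine div_le_div_of_nonneg_right (hy.trans ?_) l0.le
      rw [div_mul_eq_mul_div, le_div_iff₀ q0]
      exact mul_le_mul_of_nonneg_left hq (by positivity))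
  rw [sqrt_tup l0] at h3
  refine (twoPt_scale l0 hm _ _).2 (twoPt_mono h3 ?_ ?_)
  · rw [mul_div_assoc]
    gcongr
  · rw [div_div_eq_mul_div, div_mul_eq_mul_div]
    gcongr

/-- smooth convergence as `λ → ∞` from smooth convergence along all ultrafilters -/
theorem smooth_of_ultra (hab : a < b) (hM : InC D G M (Ioo a b)) (x₀ : E3) {L : ℝ → Set E3}
    (hL : IsMCF L (Iio 0))
    (hS : ∀ V : Ultrafilter ℝ, ↑V ≤ (atTop : Filter ℝ) →
      SLim V (fun lam => scaleFlow lam x₀ b M) L (Iio 0))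
    {M' : ℝ → ℝ → Set E3} {L' : ℝ → Set E3}
    (e1 : ∀ lam > 0, ∀ s, M' lam s = scaleFlow lam x₀ b M s) (e2 : ∀ s < 0, L' s = L s) :
    St.SmoothTendsto M' L' := by
  intro t ht x
  rw [e2 t ht]
  refine ⟨fun hx => ?_, fun hx => ?_⟩
  · obtain ⟨r, C, hr, h1⟩ := twoPt_atTop hab hM x₀ ht x
    have m0 : 0 < min r (min (1 / 2) (-t / 4)) := lt_min hr (lt_min (by norm_num) (by linarith))
    have m1 : min r (min (1 / 2) (-t / 4)) ≤ 1 / 2 := (min_le_right _ _).trans (min_le_left _ _)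
    have m2 : min r (min (1 / 2) (-t / 4)) ≤ -t / 4 := (min_le_right _ _).trans (min_le_right _ _)
    obtain ⟨e, J, pr, δ, h, f, f₀, F, d0, d1, c1, c2, c3⟩ := graph_of_ultra (U := atTop)
      (K := fun lam => scaleInt lam b (Ioo a b)) m0 (le_max_right C 1)
      (fun u hu => show u < 0 by linarith [hu.2]) (by
        filter_upwards [h1, ev_time (lam := fun lam : ℝ => lam) tendsto_id hab (2 * t)]
          with lam a1 a2
        refine ⟨hM.mcf.scale a2.1 x₀ b, fun u hu => ⟨a2.2 u (by linarith [hu.1]),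
          tup_lt a2.1 (by linarith [hu.2])⟩, fun s hs z hz hzx => twoPt_mono
            (a1 s ⟨by linarith [hs.1], by linarith [hs.2]⟩ z
              (mem_ball_iff_norm.2 (by linarith)) hz) (min_le_left _ _) (le_max_left _ _)⟩) hS hx
    have hneg : ∀ q ∈ ball ((0 : P2), t) δ, q.2 < 0 := fun q hq => by
      have b1 := ((ball_prod_same (0 : P2) t δ).symm.subset hq).2
      linarith [(abs_lt.1 (mem_ball_iff_norm.1 b1)).2]
    refine ⟨⟨J.toLinearMap, F.norm_J⟩, e, δ, h, f, f₀, ⟨F.unit, F.orth⟩, d0, by linarith,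
      ⟨c1.smooth_lim, fun q hq => ?_⟩, ?_, c1.conv⟩
    · rw [e2 _ (hneg q hq)]
      exact c2 q hq
    · filter_upwards [c1.smooth, c3, eventually_gt_atTop 0] with lam a1 a2 a3
      refine ⟨a1, fun q hq => ?_⟩
      rw [e1 lam a3]
      exact a2 q hq
  · obtain ⟨W, hW, h1⟩ := out_of_ultra hL hS ht hx
    refine ⟨Prod.swap ⁻¹' W, continuous_swap.continuousAt.preimage_mem_nhds hW, ?_⟩
    filter_upwards [h1, eventually_gt_atTop 0] with lam a1 a2 p hp
    rw [e1 lam a2]
    exact a1 _ hp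

end Vale.Agent.P218S
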