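import Vale.Agent.P218F.Fin
import Vale.Agent.P218S.Smo

/-! The final statement with locally smooth convergence. -/

open MeasureTheory Set Filter Topology Metric
open scoped Manifold ContDiff RealInnerProductSpace

namespace Vale.Agent.P218S

open Vale.Agent.P218FT Vale.Agent.P218FT.Conv Vale.Agent.P218FS

theorem image_eq_scaleSet {lam : ℝ} (hl : lam ≠ 0) (x₀ : E3) (A : Set E3) :
    (fun x => lam • (x - x₀)) '' A = scaleSet lam x₀ A := by
  ext y
  constructor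
  · rintro ⟨x, hx, rfl⟩
    exact (dn_mem_scaleSet hl).2 hx
  · intro hy
    exact ⟨_, hy, Sc.dn_up hl x₀ y⟩

universe u

theorem final (N : Type u) [TopologicalSpace N] [T2Space N] [CompactSpace N] [ConnectedSpace N]
    [ChartedSpace R2 N] [IsManifold (𝓡 2) ∞ N] (F : ℝ → N → R3) (T : ℝ) (h : IsSmoothMCF F T)
    (μ : ℝ → Measure R3)
    (hμ : ∀ t ∈ Ico 0 T, μ t = (μHE[2] : Measure R3).restrict (range (F t)))
    (x₀ : R3) (t₀ : ℝ) (ht₀ : 0 < t₀) (hT : t₀ ≤ T) :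
    ∃ S : Set R3, IsShrinker S ∧ ((S.Nonempty ↔ IsReached F x₀ t₀) ∧
      IsTangentFlow μ x₀ t₀ (shrinkerFlow S) ∧
      (∀ s < 0, WeakTendsto atTop (fun lam : ℝ => rescaled μ x₀ t₀ lam s) (shrinkerFlow S s)) ∧
      ∀ ν : ℝ → Measure R3, IsTangentFlow μ x₀ t₀ ν → ∀ s < 0, ν s = shrinkerFlow S s) ∧
      St.SmoothTendsto (St.rescaledSurface F x₀ t₀) (St.shrinkingSurface S) := by
  obtain ⟨S₀, -, g1, g2, hw, g4⟩ := P218F.Fin.final N F T h μ hμ x₀ t₀ ht₀ hT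
  have hcl := (h.mono hT).isClosedFlow
  have ha : t₀ / 2 ∈ Ioo 0 t₀ := ⟨by linarith, by linarith⟩
  obtain ⟨D, hD'⟩ := P218FS.ratio _ _ _ hcl _ ha
  obtain ⟨G, hG'⟩ := P218F.Lgb.lgbFlow_proof _ _ _ hcl _ ha
  have hM : IsMCF (fun t => range (F t)) (Ioo (t₀ / 2) t₀) :=
    isMCF_mono hcl.mcf isOpen_Ioo (Ioo_subset_Ioo_left ha.1.le)
  have hIn : InC D G (fun t => range (F t)) (Ioo (t₀ / 2) t₀) := ⟨hM, hD', hG'⟩
  have hres : ∀ s < 0, ∀ᶠ lam : ℝ in atTop, rescaled μ x₀ t₀ lam s =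
      area (scaleFlow lam x₀ t₀ (fun t => range (F t)) s) ∧
      IsSurf (scaleFlow lam x₀ t₀ (fun t => range (F t)) s) := by
    intro s hs
    filter_upwards [ev_time (lam := fun lam : ℝ => lam) tendsto_id ha.2 s] with lam hl
    have h0 := hl.2 s le_rfl
    have h1 := tup_lt (b := t₀) hl.1 hs
    refine ⟨?_, (hM.scale hl.1 x₀ t₀).isSurf ⟨h0, h1⟩⟩
    rw [rescaled, hμ _ ⟨by linarith [ha.1], by linarith⟩, scaleFlow, area_scale hl.1]
    rfl
  have hex : ∀ V : Ultrafilter ℝ, ↑V ≤ (atTop : Filter ℝ) → ∃ S : Set E3, IsShr S ∧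
      IsMCF (ssFlow S) (Iio 0) ∧
      SLim V (fun lam => scaleFlow lam x₀ t₀ fun t => range (F t)) (ssFlow S) (Iio 0) ∧
      ∀ s < 0, shrinkerFlow S₀ s = area (ssFlow S s) := by
    intro V hV
    obtain ⟨S, a1, a2, a3, -⟩ := conv_all D G _ _ _ ha.2 hIn x₀ ℝ V (fun lam => lam) hV
    refine ⟨S, a1, a2.mcf, a3, fun s hs => ?_⟩
    have b1 := g2.1 s hs
    have b2 := Chart.locFin_proof _ (a2.mcf.isSurf hs)
    have b3 := (hres s hs).filter_mono hV
    refine WeakTendsto.unique (l := V) (u := fun lam : ℝ => rescaled μ x₀ t₀ lam s)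
      (fun φ c1 c2 => (hw s hs φ c1 c2).mono_left hV) fun φ c1 c2 => ?_
    refine ((a3.slice_const hs).tendsto_area (b3.mono fun _ h => h.2) (a2.mcf.isSurf hs)
      c1 c2).congr' (b3.mono fun lam hl => ?_)
    simp only [hl.1]
  obtain ⟨S, s1, s2, -, s4⟩ := hex _ (Ultrafilter.of_le atTop)
  have m1 : (-1 : ℝ) < 0 := by norm_num
  have hone : ∀ A : Set E3, ssFlow A (-1) = A := scaleSet_one
  have hS : ∀ V : Ultrafilter ℝ, ↑V ≤ (atTop : Filter ℝ) →
      SLim V (fun lam => scaleFlow lam x₀ t₀ fun t => range (F t)) (ssFlow S) (Iio 0) := by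
    intro V hV
    obtain ⟨S', a1, -, a3, a4⟩ := hex V hV
    have := (s4 _ m1).symm.trans (a4 _ m1)
    rw [hone, hone] at this
    rwa [eq_of_area s1.1 a1.1 this]
  have hfl : ∀ s < 0, shrinkerFlow S₀ s = shrinkerFlow S s := fun s hs =>
    (s4 s hs).trans (shrinkerFlow_eq S hs).symm
  refine ⟨S, isShrinker_of s1.1 s1.2, ⟨⟨fun hne => g1.1 ?_, ?_⟩, ?_,
    fun s hs => hfl s hs ▸ hw s hs, fun ν hν s hs => hfl s hs ▸ g4 ν hν s hs⟩,
    smooth_of_ultra ha.2 hIn x₀ s2 hS (fun lam hl s => image_eq_scaleSet (ne_of_gt hl) x₀ _)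
      fun s hs => ?_⟩
  · by_contra hn
    rw [not_nonempty_iff_eq_empty] at hn
    have e1 := s4 _ m1
    rw [hone, hn, shrinkerFlow, image_empty] at e1
    have e2 : IsSurf (∅ : Set E3) := ⟨isClosed_empty, fun x hx => hx.elim⟩
    exact hne.ne_empty (eq_of_area e2 s1.1 e1).symm
  · rintro ⟨t, p, h1, h2, h3⟩
    obtain ⟨φ, hφ, hφc, h4⟩ := mass_of_reached P218FS.huisken Hu.dens_proof ha.2 hM hD'
      (x₀ := x₀) fun δ hδ => by
        obtain ⟨i, hi1, hi2⟩ := ((h2.eventually (lt_mem_nhds (sub_lt_self t₀ hδ))).and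
          (h3.eventually (ball_mem_nhds x₀ hδ))).exists
        exact ⟨t i, ⟨hi1, h1 i⟩, _, ⟨p i, rfl⟩, by rwa [← dist_eq_norm]⟩
    have h5 := ge_of_tendsto (hw _ m1 φ hφ hφc) (by
      filter_upwards [h4, hres _ m1] with lam a1 a2
      rw [a2.1]
      exact a1)
    by_contra hn
    rw [not_nonempty_iff_eq_empty] at hn
    rw [s4 _ m1, hone, hn, area, Measure.restrict_empty, integral_zero_measure] at h5
    norm_num at h5
  · obtain ⟨a1, lam, a2, a3⟩ := g2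
    exact ⟨fun s hs => hfl s hs ▸ a1 s hs, lam, a2, fun s hs => hfl s hs ▸ a3 s hs⟩
  · have := image_eq_scaleSet (Real.sqrt_pos.2 (neg_pos.2 hs)).ne' 0 S
    simp only [sub_zero] at this
    exact this

end Vale.Agent.P218S
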