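import Vale.Agent.P218FT.ConvE

/-! Smooth convergence along a filter from smooth convergence along all finer ultrafilters. -/

open Set Filter Topology Metric
open scoped ContDiff RealInnerProductSpace

namespace Vale.Agent.P218S

open Vale.Agent.P218FT Vale.Agent.P218FT.Chart Vale.Agent.P218FT.Conv

variable {ι : Type} {U : Filter ι} {M : ι → ℝ → Set E3} {L : ℝ → Set E3} {I : Set ℝ}

theorem ev_of_ultra {p : ι → Prop} (h : ∀ V : Ultrafilter ι, ↑V ≤ U → ∀ᶠ i in V, p i) :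
    ∀ᶠ i in U, p i := mem_iff_ultrafilter.2 fun V hV => h V hV

/-- points off the limit -/
theorem out_of_ultra (hL : IsMCF L I) (hS : ∀ V : Ultrafilter ι, ↑V ≤ U → SLim V M L I)
    {t : ℝ} (ht : t ∈ I) {x : E3} (hx : x ∉ L t) :
    ∃ W ∈ 𝓝 (t, x), ∀ᶠ i in U, ∀ p ∈ W, p.2 ∉ M i p.1 := by
  have h1 : ∀ᶠ p : ℝ × E3 in 𝓝 (t, x), p.2 ∉ L p.1 ∧ p.1 ∈ I :=
    (hL.closed t ht x hx).and (continuous_fst.continuousAt.eventually (hL.isOpen.mem_nhds ht))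
  obtain ⟨r, hr, h2⟩ := nhds_basis_closedBall.mem_iff.1 h1
  refine ⟨closedBall (t, x) r, closedBall_mem_nhds _ hr, ev_of_ultra fun V hV => ?_⟩
  refine (isCompact_closedBall (t, x) r).induction_on
    (p := fun s => ∀ᶠ i in (V : Filter ι), ∀ q ∈ s, q.2 ∉ M i q.1) (by simp)
    (fun s s' hs h => h.mono fun i hi q hq => hi q (hs hq))
    (fun s s' h h' => (h.and h').mono fun i hi q hq => hq.elim (hi.1 q) (hi.2 q))
    fun q hq => ?_
  obtain ⟨W, hW, h3⟩ := (hS V hV).out q.1 (h2 hq).2 q.2 (h2 hq).1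
  exact ⟨W, mem_nhdsWithin_of_mem_nhds hW, h3⟩

/-- points of the limit: graphs over a fixed plane -/
theorem graph_of_ultra [U.NeBot] {K : ι → Set ℝ} {t : ℝ} {x : E3} {r C : ℝ} (hr : 0 < r)
    (hC : 1 ≤ C) (hI : Icc (t - r) (t + r) ⊆ I)
    (hM : ∀ᶠ i in U, IsMCF (M i) (K i) ∧ Icc (t - r) (t + r) ⊆ K i ∧
      ∀ s ∈ Icc (t - r) (t + r), ∀ z ∈ M i s, ‖z - x‖ ≤ r → TwoPt (M i s) z r C)
    (hS : ∀ V : Ultrafilter ι, ↑V ≤ U → SLim V M L I) (hx : x ∈ L t) :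
    ∃ (e : E3) (J : P2 →L[ℝ] E3) (pr : E3 →L[ℝ] P2) (δ h : ℝ) (f : ι → P2 × ℝ → ℝ)
      (f₀ : P2 × ℝ → ℝ), Frame e J pr ∧ 0 < δ ∧ δ ≤ r ∧ CInf U (ball (0, t) δ) f f₀ ∧
      (∀ q ∈ ball ((0 : P2), t) δ, |f₀ q| < h ∧
        ∀ z : ℝ, |z| < h → (x + J q.1 + z • e ∈ L q.2 ↔ z = f₀ q)) ∧
      ∀ᶠ i in U, ∀ q ∈ ball ((0 : P2), t) δ, |f i q| < h ∧
        ∀ z : ℝ, |z| < h → (x + J q.1 + z • e ∈ M i q.2 ↔ z = f i q) := by
  classical
  obtain ⟨ρ, hρ, hρr, hρC, hρ1⟩ := exists_rho hr hC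
  have hρ2 : ρ ^ 2 ≤ ρ := by nlinarith
  have hρ3 : 0 < ρ ^ 2 := by positivity
  have htI : t ∈ Icc (t - r) (t + r) := ⟨by linarith, by linarith⟩
  have ht : t ∈ I := hI htI
  have hV₀ := Ultrafilter.of_le U
  have he : ‖nu (L t) x‖ = 1 := ((hS _ hV₀).slice_const ht).norm_nu hx
  obtain ⟨J, pr, F⟩ := exists_frame he
  set e := nu (L t) x with hedef
  have h1 : ∀ᶠ i in U, ∃ y ∈ M i t, ‖y - x‖ ≤ ρ ^ 2 / 2 ∧ 16 / 17 ≤ ⟪nu (M i t) y, e⟫ ^ 2 := by
    refine ev_of_ultra fun V hV => ?_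
    have hs := (hS V hV).slice_const ht
    obtain ⟨y, y1, y2⟩ := hs.exists_seq hx
    have a1 := hs.tendsto_pt hx y1 y2
    have a2 : Tendsto (fun i => ⟪pt (nu (M i t) (y i)) e, e⟫) V (𝓝 ⟪pt e e, e⟫) :=
      (((ContinuousLinearMap.apply ℝ E3 e).continuous.tendsto _).comp a1).inner (𝕜 := ℝ)
        tendsto_const_nhds
    have a3 : ∀ n : E3, ⟪pt n e, e⟫ = 1 - ⟪n, e⟫ ^ 2 := fun n => by
      rw [Chart.pt_apply, inner_sub_left, real_inner_smul_left, F.inner_n]; ring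
    simp only [a3, F.inner_n] at a2
    filter_upwards [y2, y1.eventually (closedBall_mem_nhds x (half_pos hρ3)),
      a2.eventually (gt_mem_nhds (show 1 - (1 : ℝ) ^ 2 < 1 / 17 by norm_num))] with i b1 b2 b3
    exact ⟨y i, b1, mem_closedBall_iff_norm.1 b2, by linarith⟩
  let D : Set (P2 × ℝ) := ball (0, t) (ρ ^ 2 / 4)
  have hD : IsOpen D := isOpen_ball
  have hmem : ∀ q ∈ D, ‖q.1‖ < ρ ^ 2 / 4 ∧ |q.2 - t| < ρ ^ 2 / 4 := fun q hq => by
    have b := (ball_prod_same (0 : P2) t (ρ ^ 2 / 4)).symm.subset hq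
    exact ⟨mem_ball_zero_iff.1 b.1, mem_ball_iff_norm.1 b.2⟩
  choose B hB using fun j : ℕ =>
    Int.int_proof (j + 1) (16 * C) (ρ / 4) (Nat.le_add_left 1 j) (by positivity)
  have hself : ∀ q : P2 × ℝ, q ∈ closedBall q.1 (ρ / 4) ×ˢ Icc (q.2 - (ρ / 4) ^ 2) q.2 := fun q =>
    ⟨mem_closedBall_self (by positivity), by linarith [sq_nonneg (ρ / 4)], le_rfl⟩
  have h2 : ∀ᶠ i in U, ∃ f : P2 × ℝ → ℝ, ContDiffOn ℝ ∞ f D ∧
      (∀ j, ∀ q ∈ D, ‖iteratedFDeriv ℝ (j + 1) f q‖ ≤ B j) ∧ ∀ q ∈ D, |f q| ≤ 3 * ρ ∧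
        ∀ z : ℝ, |z| ≤ 6 * ρ → (x + J q.1 + z • e ∈ M i q.2 ↔ z = f q) := by
    filter_upwards [hM, h1] with i hi ⟨y, y1, y2, y3⟩
    have e1 := decomp' F x y
    obtain ⟨f, O, a1, a2, a3, a4⟩ := exists_cyl graph_proof (by linarith : 0 < C) hρ hρr hρC hi.1
      x F htI hi.2.1 hi.2.2 (ξ₀ := pr (y - x)) (z₀ := ⟪e, y - x⟫)
      ((F.norm_pr_le _).trans (by linarith)) ((abs_inner_le F _).trans (by linarith))
      (e1.symm ▸ y1) (e1.symm ▸ y3)
    have a5 : ∀ q ∈ D, closedBall q.1 (ρ / 4) ×ˢ Icc (q.2 - (ρ / 4) ^ 2) q.2 ⊆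
        cyl (pr (y - x)) t (t - r) (t + r) ρ := by
      intro q hq a ha
      have b1 := (hmem q hq).1
      have b2 := abs_lt.1 (hmem q hq).2
      have b3 := mem_closedBall_iff_norm.1 ha.1
      have b4 := (F.norm_pr_le _).trans y2
      have b6 := ha.2.1
      have b7 := ha.2.2
      refine ⟨mem_closedBall_iff_norm.2 ?_, ⟨by linarith, by linarith⟩,
        mem_closedBall_iff_norm.2 (abs_le.2 ⟨by linarith, by linarith⟩)⟩
      have c1 := norm_sub_le a.1 (pr (y - x))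
      have c2 := norm_le_insert' a.1 q.1
      linarith
    refine ⟨f, a2.mono fun q hq => a3 (a5 q hq (hself q)), fun j q hq => ?_, fun q hq =>
      (a4 q (a5 q hq (hself q))).2.2.2⟩
    exact hB j f O q.1 q.2 a1 a2 ((a5 q hq).trans a3) fun a ha =>
      ⟨(a4 a (a5 q hq ha)).1, (a4 a (a5 q hq ha)).2.1.trans (by linarith),
        (a4 a (a5 q hq ha)).2.2.1⟩
  obtain ⟨f, hf⟩ := h2.choice
  have hbd : ∀ k, Bd k U D f := by
    refine Bd.of_forall (hf.mono fun i hi => hi.1) fun j => ?_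
    rcases j with _ | j
    · refine ⟨3 * ρ, hf.mono fun i hi q hq => ?_⟩
      rw [norm_iteratedFDeriv_zero]
      exact (hi.2.2 q hq).1
    · exact ⟨B j, hf.mono fun i hi => hi.2.1 j⟩
  have key : ∀ V : Ultrafilter ι, ↑V ≤ U → ∀ g, CInf V D f g → ∀ q ∈ D, |g q| ≤ 3 * ρ ∧
      ∀ z : ℝ, |z| < 6 * ρ → (x + J q.1 + z • e ∈ L q.2 ↔ z = g q) := by
    intro V hV g hg q hq
    have hf' := hf.filter_mono hV
    have b2 := abs_lt.1 (hmem q hq).2
    have hs := (hS V hV).slice_const (hI (show q.2 ∈ Icc (t - r) (t + r) from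
      ⟨by linarith, by linarith⟩))
    refine ⟨le_of_tendsto (hg.tendsto hq).abs (hf'.mono fun i hi => (hi.2.2 q hq).1),
      fun z hz => ⟨fun hm => ?_, fun hm => ?_⟩⟩
    · obtain ⟨y, y1, y2⟩ := hs.exists_seq hm
      have c0 : x + J q.1 + z • e - x = J q.1 + z • e := by abel
      have c1 : Tendsto (fun i => (pr (y i - x), q.2)) V (𝓝 q) := by
        have := ((pr.continuous.tendsto _).comp (y1.sub_const x)).prodMk_nhds
          (tendsto_const_nhds (x := q.2))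
        rwa [c0, map_add, map_smul, F.pr_J, F.pr_n, smul_zero, add_zero] at this
      have c2 : Tendsto (fun i => ⟪e, y i - x⟫) V (𝓝 z) := by
        have := (tendsto_const_nhds (x := e)).inner (𝕜 := ℝ) (y1.sub_const x)
        rwa [c0, inner_add_right, F.orth, real_inner_smul_right, F.inner_n, zero_add,
          mul_one] at this
      refine tendsto_nhds_unique c2 ((hg.tendsto_comp hD hq c1).congr' ?_)
      filter_upwards [hf', y2, c1.eventually (hD.mem_nhds hq),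
        c2.abs.eventually (gt_mem_nhds hz)] with i d1 d2 d3 d4
      exact (((d1.2.2 _ d3).2 _ d4.le).1 ((decomp' F x (y i)).symm ▸ d2)).symm
    · have c1 := ((hg.tendsto hq).smul_const e).const_add (x + J q.1)
      rw [hm]
      refine hs.mem_of_tendsto c1 (Eventually.frequently (hf'.mono fun i hi => ?_))
      exact ((hi.2.2 q hq).2 _ ((hi.2.2 q hq).1.trans (by linarith))).2 rfl
  have hex := fun (V : Ultrafilter ι) (hV : ↑V ≤ U) =>
    exists_cinf V hD (convex_ball _ _) isBounded_ball fun k => (hbd k).mono_filter hV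
  obtain ⟨f₀, hf₀⟩ := hex _ hV₀
  have k0 := key _ hV₀ f₀ hf₀
  refine ⟨e, J, pr, ρ ^ 2 / 4, 6 * ρ, f, f₀, F, by positivity, by linarith,
    cinf_of_tendsto hD (convex_ball _ _) isBounded_ball hbd fun q hq => ?_,
    fun q hq => ⟨(k0 q hq).1.trans_lt (by linarith), (k0 q hq).2⟩,
    hf.mono fun i hi q hq => ⟨(hi.2.2 q hq).1.trans_lt (by linarith),
      fun z hz => (hi.2.2 q hq).2 z hz.le⟩⟩
  refine (tendsto_iff_ultrafilter _ _ _).2 fun V hV => ?_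
  obtain ⟨g, hg⟩ := hex V hV
  have k1 := key V hV g hg q hq
  have k2 : |g q| < 6 * ρ := k1.1.trans_lt (by linarith)
  rw [← ((k0 q hq).2 _ k2).1 ((k1.2 _ k2).2 rfl)]
  exact hg.tendsto hq

end Vale.Agent.P218S
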